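import Mathlib.LinearAlgebra.Matrix.Determinant.Basic
import Mathlib.Analysis.Complex.Basic
import Mathlib.Analysis.Matrix.Normed
import Mathlib.Data.Fintype.CardEmbedding

/-!
# An all-functions form of the Cauchy-Binet identity
-/

open Matrix Finset

namespace Vale.Agent.P344

variable {r n : ℕ}

/-- Cauchy-Binet, summing over all functions `Fin r → Fin n`. -/
theorem cauchyBinet_all {R : Type*} [CommRing R]
    (A : Matrix (Fin r) (Fin n) R) (B : Matrix (Fin n) (Fin r) R) :
    ∑ f : Fin r → Fin n, (A.submatrix id f).det * (B.submatrix f id).det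
      = (r.factorial : R) * (A * B).det := by
  have hA : ∀ f : Fin r → Fin n, (A.submatrix id f).det
      = ∑ τ : Equiv.Perm (Fin r), (Equiv.Perm.sign τ : ℤ) * ∏ i, A (τ i) (f i) := by
    intro f
    rw [Matrix.det_apply']
    simp [Matrix.submatrix_apply]
  have hB : ∀ f : Fin r → Fin n, (B.submatrix f id).det
      = ∑ σ : Equiv.Perm (Fin r), (Equiv.Perm.sign σ : ℤ) * ∏ i, B (f i) (σ i) := by
    intro f
    rw [← Matrix.det_transpose, Matrix.det_apply']
    simp [Matrix.submatrix_apply, Matrix.transpose_apply]
  have hC : ∀ τ : Equiv.Perm (Fin r),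
      ∑ σ : Equiv.Perm (Fin r), ((Equiv.Perm.sign τ : ℤ) : R) * ((Equiv.Perm.sign σ : ℤ) : R)
          * ∏ i, (A * B) (τ i) (σ i) = (A * B).det := by
    intro τ
    have h1 : ((A * B).submatrix τ id).det
        = ∑ σ : Equiv.Perm (Fin r), ((Equiv.Perm.sign σ : ℤ) : R) * ∏ i, (A * B) (τ i) (σ i) := by
      rw [← Matrix.det_transpose, Matrix.det_apply']
      simp [Matrix.submatrix_apply, Matrix.transpose_apply]
    have h2 : ((A * B).submatrix τ id).det = ((Equiv.Perm.sign τ : ℤ) : R) * (A * B).det :=
      Matrix.det_permute τ (A * B)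
    calc _ = ((Equiv.Perm.sign τ : ℤ) : R) * ((A * B).submatrix τ id).det := by
            rw [h1, Finset.mul_sum]
            exact Finset.sum_congr rfl (fun σ _ => by ring)
      _ = ((Equiv.Perm.sign τ : ℤ) : R) * ((Equiv.Perm.sign τ : ℤ) : R) * (A * B).det := by
            rw [h2]; ring
      _ = (A * B).det := by
            have : ((Equiv.Perm.sign τ : ℤ) : R) * ((Equiv.Perm.sign τ : ℤ) : R) = 1 := by
              have h := Int.units_mul_self (Equiv.Perm.sign τ)
              have h' : ((Equiv.Perm.sign τ : ℤ) * (Equiv.Perm.sign τ : ℤ)) = 1 := by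
                rw [← Units.val_mul, h]; rfl
              exact_mod_cast congrArg (fun z : ℤ => (z : R)) h'
            rw [this, one_mul]
  calc ∑ f : Fin r → Fin n, (A.submatrix id f).det * (B.submatrix f id).det
      = ∑ f : Fin r → Fin n, ∑ τ : Equiv.Perm (Fin r), ∑ σ : Equiv.Perm (Fin r),
          ((Equiv.Perm.sign τ : ℤ) : R) * ((Equiv.Perm.sign σ : ℤ) : R)
            * ∏ i, (A (τ i) (f i) * B (f i) (σ i)) := by
        refine Finset.sum_congr rfl (fun f _ => ?_)
        rw [hA, hB, Finset.sum_mul]
        refine Finset.sum_congr rfl (fun τ _ => ?_)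
        rw [Finset.mul_sum]
        refine Finset.sum_congr rfl (fun σ _ => ?_)
        rw [Finset.prod_mul_distrib]
        ring
    _ = ∑ τ : Equiv.Perm (Fin r), ∑ σ : Equiv.Perm (Fin r),
          ((Equiv.Perm.sign τ : ℤ) : R) * ((Equiv.Perm.sign σ : ℤ) : R)
            * ∑ f : Fin r → Fin n, ∏ i, (A (τ i) (f i) * B (f i) (σ i)) := by
        rw [Finset.sum_comm]
        refine Finset.sum_congr rfl (fun τ _ => ?_)
        rw [Finset.sum_comm]
        refine Finset.sum_congr rfl (fun σ _ => ?_)
        rw [Finset.mul_sum]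
    _ = ∑ τ : Equiv.Perm (Fin r), ∑ σ : Equiv.Perm (Fin r),
          ((Equiv.Perm.sign τ : ℤ) : R) * ((Equiv.Perm.sign σ : ℤ) : R)
            * ∏ i, (A * B) (τ i) (σ i) := by
        refine Finset.sum_congr rfl (fun τ _ => Finset.sum_congr rfl (fun σ _ => ?_))
        congr 1
        have := (Finset.prod_univ_sum (fun _ : Fin r => (Finset.univ : Finset (Fin n)))
          (fun i k => A (τ i) k * B k (σ i))).symm
        simp only [Fintype.piFinset_univ] at this
        rw [this]
        refine Finset.prod_congr rfl (fun i _ => ?_)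
        simp [Matrix.mul_apply]
    _ = ∑ _τ : Equiv.Perm (Fin r), (A * B).det :=
        Finset.sum_congr rfl (fun τ _ => hC τ)
    _ = (r.factorial : R) * (A * B).det := by
        simp [Finset.card_univ, Fintype.card_perm, Fintype.card_fin]

/-- Sum of squared moduli of all `r × r` row-selected minors. -/
noncomputable def sumSqMinors (M : Matrix (Fin n) (Fin r) ℂ) : ℝ :=
  ∑ f : Fin r → Fin n, ‖(M.submatrix f id).det‖ ^ 2

theorem sumSqMinors_nonneg (M : Matrix (Fin n) (Fin r) ℂ) : 0 ≤ sumSqMinors M :=
  Finset.sum_nonneg (fun _ _ => by positivity)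

/-- Cauchy-Binet for `Mᴴ * M`. -/
theorem sumSqMinors_eq (M : Matrix (Fin n) (Fin r) ℂ) :
    ((sumSqMinors M : ℝ) : ℂ) = (r.factorial : ℂ) * (Mᴴ * M).det := by
  rw [← cauchyBinet_all, sumSqMinors, Complex.ofReal_sum]
  refine Finset.sum_congr rfl (fun f _ => ?_)
  have h : (Mᴴ.submatrix id f).det = star ((M.submatrix f id).det) := by
    rw [← Matrix.det_conjTranspose]
    congr 1
  rw [h]
  simp only [Complex.star_def]
  rw [mul_comm, Complex.mul_conj, Complex.normSq_eq_norm_sq]

/-- A single minor is bounded by the sum over all its row permutations. -/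
theorem factorial_mul_minor_sq_le (M : Matrix (Fin n) (Fin r) ℂ) (f : Fin r → Fin n) :
    (r.factorial : ℝ) * ‖(M.submatrix f id).det‖ ^ 2 ≤ sumSqMinors M := by
  classical
  by_cases hf : Function.Injective f
  · have key : ∑ π : Equiv.Perm (Fin r), ‖(M.submatrix (f ∘ π) id).det‖ ^ 2
        ≤ sumSqMinors M := by
      have hinj : Function.Injective (fun π : Equiv.Perm (Fin r) => f ∘ π) := by
        intro π₁ π₂ h
        ext i
        have := congrFun h i
        simp only [Function.comp_apply] at this
        exact congrArg _ (hf this)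
      have := Finset.sum_image (s := (Finset.univ : Finset (Equiv.Perm (Fin r))))
        (g := fun π : Equiv.Perm (Fin r) => f ∘ π)
        (f := fun h : Fin r → Fin n => ‖(M.submatrix h id).det‖ ^ 2)
        (fun a _ b _ hab => hinj hab)
      rw [← this]
      exact Finset.sum_le_sum_of_subset_of_nonneg (Finset.subset_univ _)
        (fun _ _ _ => by positivity)
    have hperm : ∀ π : Equiv.Perm (Fin r),
        ‖(M.submatrix (f ∘ π) id).det‖ ^ 2 = ‖(M.submatrix f id).det‖ ^ 2 := by
      intro π
      have h1 : M.submatrix (f ∘ π) id = (M.submatrix f id).submatrix π id := rfl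
      rw [h1, Matrix.det_permute π]
      rcases Int.units_eq_one_or (Equiv.Perm.sign π) with h | h <;> simp [h]
    simp only [hperm] at key
    simpa [Finset.card_univ, Fintype.card_perm, Fintype.card_fin] using key
  · obtain ⟨a, b, hab, hne⟩ : ∃ a b, f a = f b ∧ a ≠ b := by
      simpa [Function.Injective] using hf
    have : (M.submatrix f id).det = 0 :=
      Matrix.det_zero_of_row_eq hne (by ext j; simp [Matrix.submatrix_apply, hab])
    rw [this]
    simpa using sumSqMinors_nonneg M

/-- Only injective selections contribute, so the sum is bounded by the number of them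
times any uniform bound. -/
theorem sumSqMinors_le (M : Matrix (Fin n) (Fin r) ℂ) (T : ℝ) (hT : 0 ≤ T)
    (h : ∀ f : Fin r → Fin n, ‖(M.submatrix f id).det‖ ^ 2 ≤ T) :
    sumSqMinors M ≤ (n.descFactorial r : ℝ) * T := by
  classical
  have hzero : ∀ f : Fin r → Fin n, ¬ Function.Injective f →
      ‖(M.submatrix f id).det‖ ^ 2 = 0 := by
    intro f hf
    obtain ⟨a, b, hab, hne⟩ : ∃ a b, f a = f b ∧ a ≠ b := by
      simpa [Function.Injective] using hf
    have : (M.submatrix f id).det = 0 :=
      Matrix.det_zero_of_row_eq hne (by ext j; simp [Matrix.submatrix_apply, hab])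
    rw [this]; simp
  have hsum : sumSqMinors M
      = ∑ f ∈ Finset.univ.filter (fun f : Fin r → Fin n => Function.Injective f),
          ‖(M.submatrix f id).det‖ ^ 2 := by
    rw [sumSqMinors, Finset.sum_filter_of_ne]
    intro f _ hne
    by_contra hf
    exact hne (hzero f hf)
  have hcard : ((Finset.univ.filter (fun f : Fin r → Fin n => Function.Injective f)).card)
      = n.descFactorial r := by
    rw [← Fintype.card_subtype, Fintype.card_congr (Equiv.subtypeInjectiveEquivEmbedding _ _),
      Fintype.card_embedding_eq, Fintype.card_fin, Fintype.card_fin]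
  rw [hsum]
  calc _ ≤ ∑ _f ∈ Finset.univ.filter (fun f : Fin r → Fin n => Function.Injective f), T :=
        Finset.sum_le_sum (fun f _ => h f)
    _ = (n.descFactorial r : ℝ) * T := by
        rw [Finset.sum_const, hcard, nsmul_eq_mul]

end Vale.Agent.P344
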