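import Mathlib.Analysis.SpecialFunctions.Complex.Circle
import Mathlib.Data.Complex.Basic

/-!
# Linear circuits over the complex numbers and the discrete Fourier transform
-/

namespace Vale.Agent.P344

/-- A gate of a linear circuit. The arguments are wire numbers. -/
inductive LinGate where
  | add (a b : ℕ) : LinGate
  | sub (a b : ℕ) : LinGate
  | smul (c : ℂ) (a : ℕ) : LinGate

/-- The value of a gate, given the list of the values computed so far.
A wire number that does not exist yet reads as the constant `0`. -/
def LinGate.eval (vals : List ℂ) : LinGate → ℂ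
  | .add a b => vals.getD a 0 + vals.getD b 0
  | .sub a b => vals.getD a 0 - vals.getD b 0
  | .smul c a => c * vals.getD a 0

/-- The values of all wires on input `x`: first `x 0, ..., x (n-1)`, then the constant `0`
(wire number `n`), then the gates in order (gate number `i` is wire number `n + 1 + i`). -/
def wires {n : ℕ} (x : Fin n → ℂ) (gates : List LinGate) : List ℂ :=
  gates.foldl (fun vals g => vals ++ [g.eval vals]) (List.ofFn x ++ [0])

/-- The root of unity `exp (2 π i / n)`. -/
noncomputable def zeta (n : ℕ) : ℂ := Complex.exp (2 * Real.pi * Complex.I / n)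

/-- The wires `out j` are the outputs of the unnormalized discrete Fourier transform `F_n`:
they equal `∑ k, ζ_n ^ (j k) * x k` for every input `x`. -/
def IsDFTOutputs (n : ℕ) (gates : List LinGate) (out : Fin n → ℕ) : Prop :=
  ∀ (x : Fin n → ℂ) (j : Fin n),
    (wires x gates).getD (out j) 0 = ∑ k : Fin n, zeta n ^ ((j : ℕ) * (k : ℕ)) * x k

/-- The circuit computes `F_n` exactly: some of its wires are the outputs of `F_n`. -/
def ComputesDFT (n : ℕ) (gates : List LinGate) : Prop :=
  ∃ out : Fin n → ℕ, IsDFTOutputs n gates out

/-- The cost of a gate in the determinant potential, after applying the ring homomorphism `σ`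
to its coefficient: `2` for additions and subtractions, `max 1 ‖σ c‖` for scalar gates. -/
noncomputable def gateCost (σ : ℂ →+* ℂ) : LinGate → ℝ
  | .add _ _ => 2
  | .sub _ _ => 2
  | .smul c _ => max 1 ‖σ c‖

/-- The wire weight `t` bounds the path gains at a gate, with coefficients transformed by `σ`:
gate number `i` is wire number `n + 1 + i`, an addition or subtraction has weight at least the
larger of the weights of its arguments, a scalar gate at least `‖σ c‖` times the weight of its
argument. -/
def GainBound (n : ℕ) (σ : ℂ →+* ℂ) (t : ℕ → ℝ) (i : ℕ) : LinGate → Prop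
  | .add a b => max (t a) (t b) ≤ t (n + 1 + i)
  | .sub a b => max (t a) (t b) ≤ t (n + 1 + i)
  | .smul c a => ‖σ c‖ * t a ≤ t (n + 1 + i)

end Vale.Agent.P344
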