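import Vale.Agent.P344.Main

/-!
# Applying a ring homomorphism to the coefficients
-/

open Matrix Finset

namespace Vale.Agent.P344

variable {n : ℕ}

/-- Apply `σ` to the coefficient of a gate. -/
def mapGate (σ : ℂ →+* ℂ) : LinGate → LinGate
  | .add a b => .add a b
  | .sub a b => .sub a b
  | .smul c a => .smul (σ c) a

theorem eval_mapGate (σ : ℂ →+* ℂ) (vals : List ℂ) (g : LinGate) :
    (mapGate σ g).eval (vals.map σ) = σ (g.eval vals) := by
  have h : ∀ i, (vals.map σ).getD i 0 = σ (vals.getD i 0) := by
    intro i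
    have := List.getD_map (l := vals) (d := (0 : ℂ)) (n := i) (f := σ)
    rwa [map_zero] at this
  cases g with
  | add a b => simp only [mapGate, LinGate.eval, h, map_add]
  | sub a b => simp only [mapGate, LinGate.eval, h, map_sub]
  | smul c a => simp only [mapGate, LinGate.eval, h, map_mul]

theorem wires_map (σ : ℂ →+* ℂ) (x : Fin n → ℂ) (gates : List LinGate) :
    wires (fun k => σ (x k)) (gates.map (mapGate σ)) = (wires x gates).map σ := by
  induction gates using List.reverseRecOn with
  | nil =>
    simp [wires, List.map_ofFn, Function.comp_def]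
  | append_singleton l g ih =>
    rw [wires_snoc, List.map_append, List.map_singleton, wires_snoc, ih, List.map_append,
      List.map_singleton, eval_mapGate]

theorem wireAt_map (σ : ℂ →+* ℂ) (x : Fin n → ℂ) (gates : List LinGate) (i : ℕ) :
    wireAt (fun k => σ (x k)) (gates.map (mapGate σ)) i = σ (wireAt x gates i) := by
  unfold wireAt
  rw [wires_map]
  have := List.getD_map (l := wires x gates) (d := (0 : ℂ)) (n := i) (f := σ)
  rwa [map_zero] at this

/-- A circuit computing `F_n` still computes `F_n` after applying `σ` to its coefficients,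
up to renumbering the outputs. -/
theorem isDFTOutputs_map (hn : 0 < n) (σ : ℂ →+* ℂ) (gates : List LinGate) (out : Fin n → ℕ)
    (hout : IsDFTOutputs n gates out) :
    ∃ π : Fin n → Fin n, IsDFTOutputs n (gates.map (mapGate σ)) (fun j => out (π j)) := by
  classical
  have hζ := zeta_primitive hn
  have hξ : IsPrimitiveRoot (σ (zeta n)) n := hζ.map_of_injective σ.injective
  have : NeZero n := ⟨hn.ne'⟩
  obtain ⟨b, -, hb⟩ := hξ.eq_pow_of_pow_eq_one hζ.pow_eq_one
  refine ⟨fun j => ⟨(b * (j : ℕ)) % n, Nat.mod_lt _ hn⟩, fun x j => ?_⟩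
  obtain ⟨L, hL⟩ := exists_linear_wire (n := n) (gates.map (mapGate σ))
    (out ⟨(b * (j : ℕ)) % n, Nat.mod_lt _ hn⟩)
  change wireAt x _ _ = _
  rw [hL, LinearMap.pi_apply_eq_sum_univ L x]
  refine Finset.sum_congr rfl (fun k _ => ?_)
  rw [smul_eq_mul, mul_comm]
  congr 1
  rw [← hL]
  have hek : (fun m : Fin n => if k = m then (1 : ℂ) else 0)
      = fun m => σ (if k = m then (1 : ℂ) else 0) := by
    funext m; split_ifs <;> simp
  rw [hek, wireAt_map]
  change σ ((wires _ gates).getD _ 0) = _
  rw [hout]
  rw [Finset.sum_eq_single k]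
  · simp only [if_true, mul_one, map_pow]
    rw [pow_mul, ← pow_eq_pow_mod _ hξ.pow_eq_one, pow_mul, hb, ← pow_mul]
  · intro m _ hm
    simp [Ne.symm hm]
  · simp

theorem gateCost_mapGate (σ : ℂ →+* ℂ) (g : LinGate) :
    gateCost (RingHom.id ℂ) (mapGate σ g) = gateCost σ g := by
  cases g <;> simp [gateCost, mapGate]

theorem one_le_gateCost (σ : ℂ →+* ℂ) (g : LinGate) : 1 ≤ gateCost σ g := by
  cases g <;> simp [gateCost]

/-- The main inequality for a general ring homomorphism `σ`, with unit wire weights. -/
theorem main_sigma (hn : 0 < n) (gates : List LinGate) (hC : ComputesDFT n gates)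
    (K : Finset ℕ) (hk : K.card ≤ n) (σ : ℂ →+* ℂ) :
    (n : ℝ) ^ (n - K.card) ≤ (n.choose K.card : ℝ) * (∏ g : Fin gates.length,
        if (g : ℕ) ∈ K then 1 else gateCost σ gates[g]) ^ 2 := by
  obtain ⟨out, hout⟩ := hC
  obtain ⟨π, hπ⟩ := isDFTOutputs_map hn σ gates out hout
  set gates' := gates.map (mapGate σ) with hgates'
  have h := main_weighted hn gates' _ hπ K hk (fun _ => 1) (fun _ => zero_le_one)
    (fun _ _ => le_rfl) (fun i => gateCost (RingHom.id ℂ) (gates'.getD i (.add 0 0)))
    (fun i => one_le_gateCost _ _) ?_ 1 (fun f _ => by simp)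
  · rw [mul_one] at h
    convert h using 3
    rw [hgates', List.length_map, Finset.prod_range]
    refine Finset.prod_congr rfl (fun g _ => ?_)
    have hg : (gates.map (mapGate σ)).getD g (LinGate.add 0 0) = mapGate σ gates[g] := by
      rw [List.getD_eq_getElem _ _ (by simp)]
      simp
    rw [hg, gateCost_mapGate]
  · intro i hi _
    rw [List.getD_eq_getElem _ _ hi]
    cases gates'[i] with
    | add a b => simp only [WeightOK, gateCost]; norm_num
    | sub a b => simp only [WeightOK, gateCost]; norm_num
    | smul l a =>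
      simp only [WeightOK, gateCost, mul_one]
      exact le_max_right _ _

/-- The main inequality for wire weights bounding the gains along `K`-avoiding paths. -/
theorem main_gain (hn : 0 < n) (gates : List LinGate) (out : Fin n → ℕ)
    (hout : IsDFTOutputs n gates out) (K : Finset ℕ) (hk : K.card ≤ n) (σ : ℂ →+* ℂ)
    (t : ℕ → ℝ) (ht : ∀ i, 0 ≤ t i) (hin : ∀ i < n, 1 ≤ t i)
    (hgain : ∀ i, ∀ hi : i < gates.length, i ∉ K → GainBound n σ t i gates[i])
    (G : ℝ) (hG : ∀ j, t (out j) ≤ G) :
    (n : ℝ) ^ (n - K.card)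
      ≤ (n.choose K.card : ℝ) * 4 ^ gates.length * G ^ (2 * (n - K.card)) := by
  obtain ⟨π, hπ⟩ := isDFTOutputs_map hn σ gates out hout
  set gates' := gates.map (mapGate σ) with hgates'
  have hlen : gates'.length = gates.length := by simp [hgates']
  have hG0 : 0 ≤ G := by
    obtain ⟨i, hi⟩ : ∃ i, i = out ⟨0, hn⟩ := ⟨_, rfl⟩
    exact (ht _).trans (hG ⟨0, hn⟩)
  have h := main_weighted hn gates' _ hπ K hk t ht hin (fun _ => 2) (fun _ => by norm_num) ?_
    (G ^ (n - K.card)) (fun f _ => ?_)
  · have hP : (∏ i ∈ range gates'.length, if i ∈ K then (1 : ℝ) else 2) ≤ 2 ^ gates.length := by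
      rw [hlen]
      calc _ ≤ ∏ _i ∈ range gates.length, (2 : ℝ) := by
            refine Finset.prod_le_prod (fun i _ => ?_) (fun i _ => ?_)
            · split_ifs <;> norm_num
            · split_ifs <;> norm_num
        _ = 2 ^ gates.length := by simp
    have hPnn : 0 ≤ ∏ i ∈ range gates'.length, if i ∈ K then (1 : ℝ) else 2 :=
      Finset.prod_nonneg (fun i _ => by split_ifs <;> norm_num)
    have hGpow : 0 ≤ G ^ (n - K.card) := pow_nonneg hG0 _
    calc _ ≤ _ := h
      _ ≤ (n.choose K.card : ℝ) * (2 ^ gates.length * G ^ (n - K.card)) ^ 2 := by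
        apply mul_le_mul_of_nonneg_left _ (by positivity)
        apply pow_le_pow_left₀ (mul_nonneg hPnn hGpow)
        exact mul_le_mul_of_nonneg_right hP hGpow
      _ = _ := by
        rw [mul_pow, ← pow_mul, ← pow_mul, mul_comm (n - K.card) 2, mul_comm gates.length 2,
          pow_mul (2 : ℝ) 2]
        norm_num
        ring
  · intro i hi hiK
    have hi' : i < gates.length := by rwa [hlen] at hi
    have hg := hgain i hi' hiK
    have hEq : gates'[i] = mapGate σ gates[i] := by simp [hgates']
    rw [hEq]
    cases hgi : gates[i] with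
    | add a b =>
      rw [hgi] at hg
      simp only [GainBound] at hg
      simp only [mapGate, WeightOK]
      have h1 := (le_max_left (t a) (t b)).trans hg
      have h2 := (le_max_right (t a) (t b)).trans hg
      linarith
    | sub a b =>
      rw [hgi] at hg
      simp only [GainBound] at hg
      simp only [mapGate, WeightOK]
      have h1 := (le_max_left (t a) (t b)).trans hg
      have h2 := (le_max_right (t a) (t b)).trans hg
      linarith
    | smul l a =>
      rw [hgi] at hg
      simp only [GainBound] at hg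
      simp only [mapGate, WeightOK]
      have h3 := ht (n + 1 + i)
      linarith
  · calc ∏ a, t (out (π (f a))) ≤ ∏ _a : Fin (n - K.card), G :=
          Finset.prod_le_prod (fun _ _ => ht _) (fun a _ => hG _)
      _ = G ^ (n - K.card) := by simp

end Vale.Agent.P344
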