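import Vale.Agent.P344.Potential
import Vale.Agent.P344.CauchyBinet
import Mathlib.RingTheory.RootsOfUnity.Complex
import Mathlib.LinearAlgebra.Matrix.PosDef
import Mathlib.LinearAlgebra.Dimension.Finite
import Mathlib.LinearAlgebra.FiniteDimensional.Lemmas
import Mathlib.Analysis.Matrix.PosDef

/-!
# The main inequality, for `σ = id`
-/

open Matrix Finset
open scoped ComplexOrder

namespace Vale.Agent.P344

variable {n r : ℕ}

/-- The Fourier matrix. -/
noncomputable def dftMatrix (n : ℕ) : Matrix (Fin n) (Fin n) ℂ :=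
  Matrix.of fun j k => zeta n ^ ((j : ℕ) * (k : ℕ))

theorem zeta_primitive (hn : 0 < n) : IsPrimitiveRoot (zeta n) n :=
  Complex.isPrimitiveRoot_exp n hn.ne'

theorem norm_zeta (hn : 0 < n) : ‖zeta n‖ = 1 :=
  (zeta_primitive hn).norm'_eq_one hn.ne'

theorem dft_conj_mul (hn : 0 < n) : (dftMatrix n)ᴴ * dftMatrix n = (n : ℂ) • 1 := by
  have hζ := zeta_primitive hn
  have hnorm := norm_zeta hn
  ext k l
  rw [Matrix.mul_apply, Matrix.smul_apply]
  set ω : ℂ := star (zeta n ^ (k : ℕ)) * zeta n ^ (l : ℕ) with hω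
  have hterm : ∀ j : Fin n, (dftMatrix n)ᴴ k j * dftMatrix n j l = ω ^ (j : ℕ) := by
    intro j
    simp only [dftMatrix, Matrix.conjTranspose_apply, Matrix.of_apply]
    rw [hω, mul_pow, ← star_pow, ← pow_mul, ← pow_mul]
    rw [mul_comm (j : ℕ) (k : ℕ), mul_comm (j : ℕ) (l : ℕ)]
  simp only [hterm]
  rw [Fin.sum_univ_eq_sum_range (fun j => ω ^ j) n]
  by_cases hkl : k = l
  · subst hkl
    have : ω = 1 := by
      rw [hω]
      have h1 : star (zeta n ^ (k : ℕ)) * zeta n ^ (k : ℕ)
          = ((‖zeta n ^ (k : ℕ)‖ ^ 2 : ℝ) : ℂ) := by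
        simp only [Complex.star_def]
        rw [mul_comm, Complex.mul_conj, Complex.normSq_eq_norm_sq]
      rw [h1, norm_pow, hnorm]
      simp
    simp [this]
  · have hne : ω ≠ 1 := by
      intro h
      apply hkl
      have h1 : star (zeta n ^ (k : ℕ)) * zeta n ^ (k : ℕ) = 1 := by
        simp only [Complex.star_def]
        rw [mul_comm, Complex.mul_conj, Complex.normSq_eq_norm_sq, norm_pow, hnorm]
        simp
      have hnz : star (zeta n ^ (k : ℕ)) ≠ 0 := left_ne_zero_of_mul_eq_one h1
      have h2 : zeta n ^ (l : ℕ) = zeta n ^ (k : ℕ) := by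
        apply mul_left_cancel₀ hnz
        rw [h1, ← hω, h]
      exact Fin.ext ((hζ.pow_inj l.2 k.2 h2).symm)
    have hωn : ω ^ n = 1 := by
      rw [hω, mul_pow, ← star_pow, ← pow_mul, ← pow_mul, mul_comm (k : ℕ), mul_comm (l : ℕ),
        pow_mul, pow_mul, hζ.pow_eq_one]
      simp
    have hsum : ∑ j ∈ range n, ω ^ j = 0 := by
      have := geom_sum_mul ω n
      rw [hωn, sub_self] at this
      exact (mul_eq_zero.mp this).resolve_right (sub_ne_zero.mpr hne)
    rw [hsum]
    simp [Matrix.one_apply, hkl]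

/-- The main inequality with wire weights and gate prices, for the identity homomorphism. -/
theorem main_weighted (hn : 0 < n) (gates : List LinGate) (out : Fin n → ℕ)
    (hout : IsDFTOutputs n gates out)
    (K : Finset ℕ) (hk : K.card ≤ n)
    (t : ℕ → ℝ) (ht : ∀ i, 0 ≤ t i) (hin : ∀ i < n, 1 ≤ t i)
    (c : ℕ → ℝ) (hc : ∀ i, 1 ≤ c i)
    (hgate : ∀ i, ∀ hi : i < gates.length, i ∉ K → WeightOK n t (c i) i gates[i])
    (M : ℝ) (hM : ∀ f : Fin (n - K.card) → Fin n, Function.Injective f →
      ∏ a, t (out (f a)) ≤ M) :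
    (n : ℝ) ^ (n - K.card) ≤ (n.choose K.card : ℝ) *
      ((∏ i ∈ range gates.length, if i ∈ K then 1 else c i) * M) ^ 2 := by
  classical
  obtain ⟨r, hr⟩ : ∃ r, r = n - K.card := ⟨_, rfl⟩
  subst_vars
  set r := n - K.card with hr
  have hnr : r ≤ n := by omega
  choose L hL using (exists_linear_wire (n := n) gates)
  let Φ : (Fin n → ℂ) →ₗ[ℂ] (K → ℂ) := LinearMap.pi (fun i : K => L (n + 1 + i))
  have hdim : r ≤ Module.finrank ℂ (LinearMap.ker Φ) := by
    have h1 := LinearMap.finrank_range_add_finrank_ker Φ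
    have h2 : Module.finrank ℂ (LinearMap.range Φ) ≤ Module.finrank ℂ (K → ℂ) :=
      Submodule.finrank_le _
    have h3 : Module.finrank ℂ (K → ℂ) = K.card := by simp
    have h4 : Module.finrank ℂ (Fin n → ℂ) = n := by simp
    omega
  obtain ⟨v, hv⟩ := exists_linearIndependent_of_le_finrank hdim
  let Q : Matrix (Fin n) (Fin r) ℂ := Matrix.of fun k j => (v j : Fin n → ℂ) k
  have hQcol : ∀ j, (fun k => Q k j) = (v j : Fin n → ℂ) := fun j => rfl
  have hQK : ∀ i ∈ K, i < gates.length → ∀ j : Fin r,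
      wireAt (fun k => Q k j) gates (n + 1 + i) = 0 := by
    intro i hi _ j
    rw [hQcol, hL]
    have h := (v j).2
    rw [LinearMap.mem_ker] at h
    exact congrFun h ⟨i, hi⟩
  have hQinj : Function.Injective Q.mulVec := by
    rw [Matrix.mulVec_injective_iff]
    have : LinearIndependent ℂ (fun j => (v j : Fin n → ℂ)) :=
      hv.map' (Submodule.subtype _) (Submodule.ker_subtype _)
    exact this
  have hdet : (Qᴴ * Q).det ≠ 0 :=
    (Matrix.PosDef.conjTranspose_mul_self Q hQinj).det_pos.ne'
  have hfact : (0 : ℝ) < r.factorial := by exact_mod_cast r.factorial_pos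
  have hS : 0 < sumSqMinors Q := by
    refine lt_of_le_of_ne (sumSqMinors_nonneg Q) (fun h0 => ?_)
    have h := sumSqMinors_eq Q
    rw [← h0] at h
    simp only [Complex.ofReal_zero] at h
    have hne : (r.factorial : ℂ) ≠ 0 := by exact_mod_cast r.factorial_ne_zero
    exact (mul_ne_zero hne hdet) h.symm
  set T : ℝ := sumSqMinors Q / r.factorial with hTdef
  have hT : 0 ≤ T := by positivity
  have hQbound : ∀ f : Fin r → Fin n, ‖(Q.submatrix f id).det‖ ≤ Real.sqrt T := by
    intro f
    apply Real.le_sqrt_of_sq_le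
    rw [hTdef, le_div_iff₀ hfact, mul_comm]
    exact factorial_mul_minor_sq_le Q f
  have hpot := potential Q K (Real.sqrt T) (Real.sqrt_nonneg _) hQbound t ht hin c hc gates
    hgate hQK
  set P : ℝ := ∏ i ∈ range gates.length, if i ∈ K then 1 else c i with hP
  have hPnn : 0 ≤ P := by
    refine prod_nonneg (fun i _ => ?_)
    split_ifs
    · norm_num
    · linarith [hc i]
  have hrow : ∀ f : Fin r → Fin n, ((dftMatrix n * Q).submatrix f id).det
      = rowDet (fun i j => wireAt (fun k => Q k j) gates i) (fun a => out (f a)) := by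
    intro f
    unfold rowDet
    congr 1
    ext a j
    simp only [Matrix.submatrix_apply, Matrix.of_apply, id]
    rw [Matrix.mul_apply]
    change _ = (wires (fun k => Q k j) gates).getD (out (f a)) 0
    rw [hout]
    rfl
  have hF : ∀ f : Fin r → Fin n, ‖((dftMatrix n * Q).submatrix f id).det‖ ^ 2
      ≤ (P * M) ^ 2 * T := by
    intro f
    by_cases hf : Function.Injective f
    · rw [hrow]
      have h := hpot (fun a => out (f a))
      have hprodnn : 0 ≤ ∏ a, t (out (f a)) := prod_nonneg (fun a _ => ht _)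
      have h' : ‖rowDet (fun i j => wireAt (fun k => Q k j) gates i) (fun a => out (f a))‖
          ≤ M * (P * Real.sqrt T) := by
        refine h.trans ?_
        exact mul_le_mul_of_nonneg_right (hM f hf) (mul_nonneg hPnn (Real.sqrt_nonneg _))
      have h'' := pow_le_pow_left₀ (norm_nonneg _) h' 2
      calc _ ≤ (M * (P * Real.sqrt T)) ^ 2 := h''
        _ = (P * M) ^ 2 * T := by
          rw [show M * (P * Real.sqrt T) = (P * M) * Real.sqrt T by ring, mul_pow, Real.sq_sqrt hT]
    · obtain ⟨a, b, hab, hne⟩ : ∃ a b, f a = f b ∧ a ≠ b := by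
        simpa [Function.Injective] using hf
      have : ((dftMatrix n * Q).submatrix f id).det = 0 :=
        Matrix.det_zero_of_row_eq hne (by ext j; simp [Matrix.submatrix_apply, hab])
      rw [this]
      simp only [norm_zero]
      have : 0 ≤ (P * M) ^ 2 * T := by positivity
      simpa using this
  have h1 := sumSqMinors_le (dftMatrix n * Q) ((P * M) ^ 2 * T) (by positivity) hF
  have h2 : sumSqMinors (dftMatrix n * Q) = (n : ℝ) ^ r * sumSqMinors Q := by
    apply Complex.ofReal_injective
    push_cast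
    rw [sumSqMinors_eq, sumSqMinors_eq]
    have : (dftMatrix n * Q)ᴴ * (dftMatrix n * Q) = (n : ℂ) • (Qᴴ * Q) := by
      rw [Matrix.conjTranspose_mul, Matrix.mul_assoc, ← Matrix.mul_assoc (dftMatrix n)ᴴ,
        dft_conj_mul hn]
      simp [Matrix.smul_mul, Matrix.mul_smul]
    rw [this, Matrix.det_smul]
    simp only [Fintype.card_fin]
    ring
  rw [h2, hTdef, Nat.descFactorial_eq_factorial_mul_choose] at h1
  have hchoose : n.choose r = n.choose K.card := by
    rw [hr]; exact Nat.choose_symm hk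
  rw [hchoose] at h1
  push_cast at h1
  have h3 : (n : ℝ) ^ r * sumSqMinors Q
      ≤ ((n.choose K.card : ℝ) * (P * M) ^ 2) * sumSqMinors Q := by
    calc _ ≤ _ := h1
      _ = _ := by field_simp
  exact le_of_mul_le_mul_right h3 hS

end Vale.Agent.P344
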