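import Vale.Agent.P344.Defs
import Mathlib.LinearAlgebra.Matrix.Determinant.Basic
import Mathlib.Analysis.Complex.Basic
import Mathlib.Algebra.BigOperators.Ring.Finset
import Mathlib.Data.List.GetD

/-!
# The determinant potential on wires
-/

open Matrix Finset

namespace Vale.Agent.P344

variable {n r : ℕ}

/-- The value of wire number `i`. -/
def wireAt (x : Fin n → ℂ) (gates : List LinGate) (i : ℕ) : ℂ := (wires x gates).getD i 0

theorem wires_snoc (x : Fin n → ℂ) (gates : List LinGate) (g : LinGate) :
    wires x (gates ++ [g]) = wires x gates ++ [g.eval (wires x gates)] := by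
  simp [wires, List.foldl_append]

theorem wires_length (x : Fin n → ℂ) (gates : List LinGate) :
    (wires x gates).length = n + 1 + gates.length := by
  induction gates using List.reverseRecOn with
  | nil => simp [wires]
  | append_singleton l g ih =>
    rw [wires_snoc]; simp [ih]; omega

theorem wireAt_nil (x : Fin n → ℂ) (i : ℕ) :
    wireAt x [] i = if h : i < n then x ⟨i, h⟩ else 0 := by
  unfold wireAt wires
  simp only [List.foldl_nil]
  by_cases h : i < n
  · simp only [h, dite_true]
    rw [List.getD_eq_getElem _ _ (by simp; omega), List.getElem_append_left (by simpa using h)]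
    simp
  · simp only [h, dite_false]
    by_cases h' : i = n
    · subst h'
      rw [List.getD_eq_getElem _ _ (by simp)]
      simp
    · rw [List.getD_eq_default]
      simp; omega

theorem wireAt_snoc (x : Fin n → ℂ) (gates : List LinGate) (g : LinGate) (i : ℕ) :
    wireAt x (gates ++ [g]) i
      = if i = n + 1 + gates.length then g.eval (wires x gates) else wireAt x gates i := by
  unfold wireAt
  rw [wires_snoc]
  have hlen := wires_length x gates
  by_cases h : i = n + 1 + gates.length
  · rw [if_pos h, List.getD_eq_getElem _ _ (by simp [hlen, h]), List.getElem_append_right (by omega)]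
    simp [hlen, h]
  · rw [if_neg h]
    by_cases h' : i < (wires x gates).length
    · rw [List.getD_eq_getElem _ _ (by simp; omega), List.getD_eq_getElem _ _ h',
        List.getElem_append_left h']
    · rw [List.getD_eq_default _ _ (by simp; omega), List.getD_eq_default _ _ (by omega)]

theorem eval_add (x : Fin n → ℂ) (gates : List LinGate) (a b : ℕ) :
    (LinGate.add a b).eval (wires x gates) = wireAt x gates a + wireAt x gates b := rfl
theorem eval_sub (x : Fin n → ℂ) (gates : List LinGate) (a b : ℕ) :
    (LinGate.sub a b).eval (wires x gates) = wireAt x gates a - wireAt x gates b := rfl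
theorem eval_smul (x : Fin n → ℂ) (gates : List LinGate) (c : ℂ) (a : ℕ) :
    (LinGate.smul c a).eval (wires x gates) = c * wireAt x gates a := rfl

/-- Wires are linear functions of the input. -/
theorem exists_linear_wire (gates : List LinGate) :
    ∀ i : ℕ, ∃ L : (Fin n → ℂ) →ₗ[ℂ] ℂ, ∀ x, wireAt x gates i = L x := by
  induction gates using List.reverseRecOn with
  | nil =>
    intro i
    by_cases h : i < n
    · refine ⟨LinearMap.proj (⟨i, h⟩ : Fin n), fun x => ?_⟩
      rw [wireAt_nil, dif_pos h]; rfl
    · refine ⟨0, fun x => ?_⟩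
      rw [wireAt_nil, dif_neg h]; rfl
  | append_singleton l g ih =>
    intro i
    by_cases hi : i = n + 1 + l.length
    · cases g with
      | add a b =>
        obtain ⟨L1, h1⟩ := ih a
        obtain ⟨L2, h2⟩ := ih b
        refine ⟨L1 + L2, fun x => ?_⟩
        rw [wireAt_snoc, if_pos hi, eval_add, h1, h2]; rfl
      | sub a b =>
        obtain ⟨L1, h1⟩ := ih a
        obtain ⟨L2, h2⟩ := ih b
        refine ⟨L1 - L2, fun x => ?_⟩
        rw [wireAt_snoc, if_pos hi, eval_sub, h1, h2]; rfl
      | smul c a =>
        obtain ⟨L1, h1⟩ := ih a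
        refine ⟨c • L1, fun x => ?_⟩
        rw [wireAt_snoc, if_pos hi, eval_smul, h1]; rfl
    · obtain ⟨L, hL⟩ := ih i
      refine ⟨L, fun x => ?_⟩
      rw [wireAt_snoc, if_neg hi, hL]

/-- The determinant of the rows of `W` selected by `g`. -/
noncomputable def rowDet (W : ℕ → Fin r → ℂ) (g : Fin r → ℕ) : ℂ :=
  (Matrix.of (fun a j => W (g a) j)).det

theorem rowDet_update_bound (W : ℕ → Fin r → ℂ) (t : ℕ → ℝ) (ht : ∀ i, 0 ≤ t i)
    (m : ℕ) (w : Fin r → ℂ) (B c : ℝ) (hB : 0 ≤ B) (hc : 1 ≤ c)
    (hbase : ∀ g, ‖rowDet W g‖ ≤ (∏ a, t (g a)) * B)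
    (hw : ∀ (g : Fin r → ℕ) (i0 : Fin r),
      ‖(Matrix.updateRow (Matrix.of (fun a j => W (g a) j)) i0 w).det‖
        ≤ t m * (∏ a ∈ univ.erase i0, t (g a)) * (c * B)) :
    ∀ g, ‖rowDet (Function.update W m w) g‖ ≤ (∏ a, t (g a)) * (c * B) := by
  classical
  intro g
  have hnn : 0 ≤ ∏ a, t (g a) := prod_nonneg (fun a _ => ht _)
  by_cases h0 : ∃ a0, g a0 = m
  · obtain ⟨a0, ha0⟩ := h0
    by_cases h1 : ∃ a1, a1 ≠ a0 ∧ g a1 = m
    · obtain ⟨a1, hne, ha1⟩ := h1
      have : rowDet (Function.update W m w) g = 0 := by
        refine Matrix.det_zero_of_row_eq hne ?_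
        ext j
        simp [Matrix.of_apply, ha0, ha1]
      rw [this, norm_zero]
      have : 0 ≤ c * B := by positivity
      positivity
    · push Not at h1
      have : rowDet (Function.update W m w) g
          = (Matrix.updateRow (Matrix.of (fun a j => W (g a) j)) a0 w).det := by
        unfold rowDet
        congr 1
        ext a j
        by_cases ha : a = a0
        · subst ha
          simp [Matrix.updateRow_apply, ha0]
        · have := h1 a ha
          simp [Matrix.updateRow_apply, ha, this]
      rw [this]
      have hprod : ∏ a, t (g a) = t m * ∏ a ∈ univ.erase a0, t (g a) := by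
        rw [← ha0, Finset.mul_prod_erase univ (fun a => t (g a)) (Finset.mem_univ a0)]
      rw [hprod]
      exact hw g a0
  · push Not at h0
    have : rowDet (Function.update W m w) g = rowDet W g := by
      unfold rowDet
      congr 1
      ext a j
      simp [Matrix.of_apply, h0 a]
    rw [this]
    calc _ ≤ (∏ a, t (g a)) * B := hbase g
      _ ≤ (∏ a, t (g a)) * (c * B) := by
        apply mul_le_mul_of_nonneg_left _ hnn
        nlinarith

theorem updateRow_selection (W : ℕ → Fin r → ℂ) (g : Fin r → ℕ) (i0 : Fin r) (a : ℕ) :
    (Matrix.updateRow (Matrix.of (fun a j => W (g a) j)) i0 (W a)).det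
      = rowDet W (Function.update g i0 a) := by
  classical
  unfold rowDet
  congr 1
  ext b j
  by_cases hb : b = i0
  · subst hb; simp [Matrix.updateRow_apply]
  · simp [Matrix.updateRow_apply, hb]

theorem prod_update_selection (t : ℕ → ℝ) (g : Fin r → ℕ) (i0 : Fin r) (a : ℕ) :
    ∏ b, t (Function.update g i0 a b) = t a * ∏ b ∈ univ.erase i0, t (g b) := by
  classical
  rw [← Finset.mul_prod_erase univ _ (Finset.mem_univ i0)]
  simp only [Function.update_self]
  congr 1
  refine Finset.prod_congr rfl (fun b hb => ?_)
  rw [Function.update_of_ne (Finset.ne_of_mem_erase hb)]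

/-- The constraint that a wire weight `t` and a gate price `c` have to satisfy at a gate:
gate number `i` is wire number `n + 1 + i`. -/
def WeightOK (n : ℕ) (t : ℕ → ℝ) (c : ℝ) (i : ℕ) : LinGate → Prop
  | .add a b => t a + t b ≤ c * t (n + 1 + i)
  | .sub a b => t a + t b ≤ c * t (n + 1 + i)
  | .smul l a => ‖l‖ * t a ≤ c * t (n + 1 + i)

/-- Potential bound along the whole circuit, with wire weights `t` and gate prices `c`. -/
theorem potential (Q : Matrix (Fin n) (Fin r) ℂ) (K : Finset ℕ) (B₀ : ℝ) (hB₀ : 0 ≤ B₀)
    (hQ : ∀ f : Fin r → Fin n, ‖(Q.submatrix f id).det‖ ≤ B₀)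
    (t : ℕ → ℝ) (ht : ∀ i, 0 ≤ t i) (hin : ∀ i < n, 1 ≤ t i)
    (c : ℕ → ℝ) (hc : ∀ i, 1 ≤ c i) (gates : List LinGate) :
    (∀ i, ∀ hi : i < gates.length, i ∉ K → WeightOK n t (c i) i gates[i]) →
    (∀ i ∈ K, i < gates.length → ∀ j : Fin r,
        wireAt (fun k => Q k j) gates (n + 1 + i) = 0) →
    ∀ g : Fin r → ℕ,
      ‖rowDet (fun i j => wireAt (fun k => Q k j) gates i) g‖
        ≤ (∏ a, t (g a)) * ((∏ i ∈ range gates.length, if i ∈ K then 1 else c i) * B₀) := by
  induction gates using List.reverseRecOn with
  | nil =>
    intro _ _ g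
    simp only [List.length_nil, range_zero, prod_empty, one_mul]
    by_cases h : ∀ a, g a < n
    · have : rowDet (fun i j => wireAt (fun k => Q k j) [] i) g
          = (Q.submatrix (fun a => (⟨g a, h a⟩ : Fin n)) id).det := by
        unfold rowDet
        congr 1
        ext a j
        simp [Matrix.of_apply, wireAt_nil, h a]
      rw [this]
      calc _ ≤ B₀ := hQ _
        _ = 1 * B₀ := (one_mul _).symm
        _ ≤ (∏ a, t (g a)) * B₀ := by
          apply mul_le_mul_of_nonneg_right _ hB₀
          calc (1 : ℝ) = ∏ _a : Fin r, (1 : ℝ) := by simp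
            _ ≤ _ := Finset.prod_le_prod (fun _ _ => zero_le_one) (fun a _ => hin _ (h a))
    · push Not at h
      obtain ⟨a, ha⟩ := h
      have : rowDet (fun i j => wireAt (fun k => Q k j) [] i) g = 0 := by
        refine Matrix.det_eq_zero_of_row_eq_zero a (fun j => ?_)
        simp [Matrix.of_apply, wireAt_nil, not_lt.mpr ha]
      rw [this, norm_zero]
      exact mul_nonneg (prod_nonneg (fun a _ => ht _)) hB₀
  | append_singleton l g ih =>
    intro hgate hK
    have hprefix : ∀ x : Fin n → ℂ, ∀ i, i < l.length →
        wireAt x (l ++ [g]) (n + 1 + i) = wireAt x l (n + 1 + i) := by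
      intro x i hi
      rw [wireAt_snoc, if_neg (by omega)]
    have hK' : ∀ i ∈ K, i < l.length → ∀ j : Fin r,
        wireAt (fun k => Q k j) l (n + 1 + i) = 0 := by
      intro i hiK hi j
      rw [← hprefix _ i hi]
      exact hK i hiK (by simp; omega) j
    have hgate' : ∀ i, ∀ hi : i < l.length, i ∉ K → WeightOK n t (c i) i l[i] := by
      intro i hi hiK
      have := hgate i (by simp; omega) hiK
      rwa [List.getElem_append_left hi] at this
    have ih' := ih hgate' hK'
    have hgate_last : l.length ∉ K → WeightOK n t (c l.length) l.length g := by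
      intro hlK
      have := hgate l.length (by simp) hlK
      simpa using this
    set B : ℝ := (∏ i ∈ range l.length, if i ∈ K then 1 else c i) * B₀ with hBdef
    have hprod : (∏ i ∈ range (l ++ [g]).length, if i ∈ K then 1 else c i) * B₀
        = (if l.length ∈ K then 1 else c l.length) * B := by
      rw [hBdef]
      simp only [List.length_append, List.length_singleton]
      rw [prod_range_succ]
      ring
    have hBnn : 0 ≤ B := by
      refine mul_nonneg (prod_nonneg (fun i _ => ?_)) hB₀
      split_ifs
      · norm_num
      · linarith [hc i]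
    intro g'
    rw [hprod]
    -- the new row of wire number `n + 1 + l.length`
    have hupdate : (fun i j => wireAt (fun k => Q k j) (l ++ [g]) i)
        = Function.update (fun i j => wireAt (fun k => Q k j) l i) (n + 1 + l.length)
            (fun j => g.eval (wires (fun k => Q k j) l)) := by
      funext i j
      rw [wireAt_snoc]
      by_cases hi : i = n + 1 + l.length
      · subst hi; simp
      · simp [hi]
    rw [hupdate]
    refine rowDet_update_bound _ t ht (n + 1 + l.length) _ B _ hBnn ?_ ih' ?_ g'
    · split_ifs
      · exact le_rfl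
      · exact hc _
    clear g'
    intro g' i0
    have hE : 0 ≤ ∏ a ∈ univ.erase i0, t (g' a) := prod_nonneg (fun a _ => ht _)
    set E : ℝ := ∏ a ∈ univ.erase i0, t (g' a) with hEdef
    by_cases hlK : l.length ∈ K
    · have hzero : (fun j => g.eval (wires (fun k => Q k j) l)) = (0 : Fin r → ℂ) := by
        funext j
        have := hK l.length hlK (by simp) j
        rw [wireAt_snoc, if_pos rfl] at this
        simpa using this
      rw [hzero, Matrix.det_eq_zero_of_row_eq_zero i0 (fun j => by simp), norm_zero, if_pos hlK,
        one_mul]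
      exact mul_nonneg (mul_nonneg (ht _) hE) hBnn
    · rw [if_neg hlK]
      have hok := hgate_last hlK
      have hsel : ∀ a, ‖(Matrix.updateRow (Matrix.of fun a' j =>
            (fun i j => wireAt (fun k => Q k j) l i) (g' a') j) i0
            (fun j => wireAt (fun k => Q k j) l a)).det‖ ≤ t a * E * B := by
        intro a
        have h1 := updateRow_selection (fun i j => wireAt (fun k => Q k j) l i) g' i0 a
        rw [h1]
        have h2 := ih' (Function.update g' i0 a)
        rwa [prod_update_selection] at h2
      cases g with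
      | add a b =>
        have hw : (fun j => (LinGate.add a b).eval (wires (fun k => Q k j) l))
            = (fun j => wireAt (fun k => Q k j) l a) + (fun j => wireAt (fun k => Q k j) l b) := by
          funext j; rfl
        rw [hw, Matrix.det_updateRow_add]
        calc _ ≤ _ := norm_add_le _ _
          _ ≤ t a * E * B + t b * E * B := add_le_add (hsel a) (hsel b)
          _ = (t a + t b) * (E * B) := by ring
          _ ≤ (c l.length * t (n + 1 + l.length)) * (E * B) :=
            mul_le_mul_of_nonneg_right hok (mul_nonneg hE hBnn)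
          _ = _ := by ring
      | sub a b =>
        have hw : (fun j => (LinGate.sub a b).eval (wires (fun k => Q k j) l))
            = (fun j => wireAt (fun k => Q k j) l a)
              + (-1 : ℂ) • (fun j => wireAt (fun k => Q k j) l b) := by
          funext j
          simp [LinGate.eval, wireAt, sub_eq_add_neg]
        rw [hw, Matrix.det_updateRow_add, Matrix.det_updateRow_smul]
        calc _ ≤ _ := norm_add_le _ _
          _ ≤ t a * E * B + t b * E * B := by
            refine add_le_add (hsel a) ?_
            rw [norm_mul, norm_neg, norm_one, one_mul]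
            exact hsel b
          _ = (t a + t b) * (E * B) := by ring
          _ ≤ (c l.length * t (n + 1 + l.length)) * (E * B) :=
            mul_le_mul_of_nonneg_right hok (mul_nonneg hE hBnn)
          _ = _ := by ring
      | smul l' a =>
        have hw : (fun j => (LinGate.smul l' a).eval (wires (fun k => Q k j) l))
            = l' • (fun j => wireAt (fun k => Q k j) l a) := by
          funext j; rfl
        rw [hw, Matrix.det_updateRow_smul, norm_mul]
        calc _ ≤ ‖l'‖ * (t a * E * B) := mul_le_mul_of_nonneg_left (hsel a) (norm_nonneg _)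
          _ = (‖l'‖ * t a) * (E * B) := by ring
          _ ≤ (c l.length * t (n + 1 + l.length)) * (E * B) :=
            mul_le_mul_of_nonneg_right hok (mul_nonneg hE hBnn)
          _ = _ := by ring

end Vale.Agent.P344
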